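import Vale.Agent.P181.GK.Defs
import Vale.Agent.P181.R2.H182.V6
import Vale.Agent.P181.R2.H822.V5

set_option autoImplicit false

/-! G6: the polarised substitutions in the first two coordinates are jointly injective. -/

namespace Vale.Agent.P181.GK.H971

open Vale.Agent.P181.H280 (IsBorel)
open Vale.Agent.P181.FR
open Vale.Agent.P181.VT
open Vale.Agent.P181.VT.V6H

/-- The substituted function of a frame. -/
noncomputable def Phi {B n : ℕ} (s : ℕ) (F : (Fin B → Fin (n + 2) → ℂ) → ℂ)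
    (p : Fin B → Fin (n + 2) → ℂ) : Matrix (Fin (1 + 1)) (Fin (1 + 1)) ℂ → ℂ :=
  fun Z => Z.det ^ s * F fun j => cb (Matrix.vecMul (xx p j) Z) (p j)

/-- The linear forms of the new coordinates. -/
noncomputable def lin {n : ℕ} (v : Fin (1 + 1) → ℂ) (q : Fin (n + 2) → ℂ) :
    Fin (n + 2) → MvPolynomial (Fin (1 + 1) × Fin (1 + 1)) ℂ :=
  Fin.cons (∑ a, MvPolynomial.C (v a) * MvPolynomial.X (a, 0))
    (Fin.cons (∑ a, MvPolynomial.C (v a) * MvPolynomial.X (a, 1))
      fun i : Fin n => MvPolynomial.C (q i.succ.succ))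

theorem eval_lin {n : ℕ} (v : Fin (1 + 1) → ℂ) (q : Fin (n + 2) → ℂ)
    (Z : Matrix (Fin (1 + 1)) (Fin (1 + 1)) ℂ) :
    (fun i => MvPolynomial.eval (fun u => Z u.1 u.2) (lin v q i)) =
      cb (Matrix.vecMul v Z) q := by
  funext i
  refine Fin.cases ?_ (fun i => Fin.cases ?_ (fun i => ?_) i) i
  · simp [lin, cb, Matrix.vecMul, dotProduct]
  · simp [lin, cb, Matrix.vecMul, dotProduct]
  · simp [lin, cb]

theorem exists_poly {B n a : ℕ} (s : ℕ) {F : (Fin B → Fin (n + 2) → ℂ) → ℂ}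
    (hF : F ∈ MP B (n + 2) a) (p : Fin B → Fin (n + 2) → ℂ) :
    ∃ P : MvPolynomial (Fin (1 + 1) × Fin (1 + 1)) ℂ, ∀ Z,
      Phi s F p Z = MvPolynomial.eval (fun u => Z u.1 u.2) P := by
  have h1 : ∃ P : MvPolynomial (Fin (1 + 1) × Fin (1 + 1)) ℂ, ∀ Z :
      Matrix (Fin (1 + 1)) (Fin (1 + 1)) ℂ,
      (F fun j => cb (Matrix.vecMul (xx p j) Z) (p j)) =
        MvPolynomial.eval (fun u => Z u.1 u.2) P := by
    induction hF using Submodule.span_induction with
    | mem F hF =>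
      obtain ⟨q, _, rfl⟩ := hF
      refine ⟨∏ j, MvPolynomial.bind₁ (lin (xx p j) (p j)) (q j), fun Z => ?_⟩
      rw [map_prod]
      refine Finset.prod_congr rfl fun j _ => ?_
      show MvPolynomial.eval (cb (Matrix.vecMul (xx p j) Z) (p j)) (q j) = _
      rw [← eval_lin (xx p j) (p j) Z]
      exact (MvPolynomial.eval₂Hom_bind₁ (RingHom.id ℂ) (fun u : Fin (1 + 1) × Fin (1 + 1) =>
        Z u.1 u.2) (lin (xx p j) (p j)) (q j)).symm
    | zero => exact ⟨0, fun Z => by simp⟩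
    | add F G _ _ hF hG =>
      obtain ⟨P, hP⟩ := hF
      obtain ⟨Q, hQ⟩ := hG
      refine ⟨P + Q, fun Z => ?_⟩
      rw [Pi.add_apply, hP, hQ, map_add]
    | smul c F _ hF =>
      obtain ⟨P, hP⟩ := hF
      refine ⟨MvPolynomial.C c * P, fun Z => ?_⟩
      rw [Pi.smul_apply, hP, map_mul, MvPolynomial.eval_C, smul_eq_mul]
  obtain ⟨P, hP⟩ := h1
  refine ⟨(MvPolynomial.X (0, 0) * MvPolynomial.X (1, 1) -
    MvPolynomial.X (0, 1) * MvPolynomial.X (1, 0)) ^ s * P, fun Z => ?_⟩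
  unfold Phi
  rw [hP, map_mul, map_pow, map_sub, map_mul, map_mul]
  simp only [MvPolynomial.eval_X]
  congr 2
  exact Matrix.det_fin_two Z

theorem Phi_smul {B n : ℕ} (s : ℕ) {F : (Fin B → Fin (n + 2) → ℂ) → ℂ}
    {lam : Fin (n + 2) → ℕ} (hF : HWF B (n + 2) lam F) (p : Fin B → Fin (n + 2) → ℂ)
    {t : ℂ} (ht : t ≠ 0) (Z : Matrix (Fin (1 + 1)) (Fin (1 + 1)) ℂ) :
    Phi s F p (t • Z) = t ^ (lam 0 + lam 1 + 2 * s) * Phi s F p Z := by
  let d : Fin (n + 2) → ℂ := Fin.cons t (Fin.cons t fun _ : Fin n => 1)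
  have hd : ∀ i, d i ≠ 0 := by
    intro i
    refine Fin.cases ?_ (fun i => Fin.cases ?_ (fun i => ?_) i) i
    · exact ht
    · exact ht
    · exact one_ne_zero
  have hB : IsBorel (Matrix.diagonal d) := by
    refine ⟨fun i j hij => Matrix.diagonal_apply_ne _ (ne_of_gt hij), fun i => ?_⟩
    rw [Matrix.diagonal_apply_eq]
    exact hd i
  have h1 := hF (Matrix.diagonal d) hB (fun j => cb (Matrix.vecMul (xx p j) Z) (p j))
  have h2 : (∏ i, (Matrix.diagonal d) i i ^ lam i) = t ^ (lam 0 + lam 1) := by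
    simp only [Matrix.diagonal_apply_eq]
    rw [Fin.prod_univ_succ, Fin.prod_univ_succ]
    have h3 : ∀ i : Fin n, d i.succ.succ = 1 := fun i => rfl
    have h4 : d 0 = t := rfl
    have h5 : d (Fin.succ 0) = t := rfl
    simp only [h3, h4, h5, one_pow, Finset.prod_const_one, mul_one]
    rw [pow_add]
    rfl
  have h6 : (fun j => Matrix.vecMul (cb (Matrix.vecMul (xx p j) Z) (p j)) (Matrix.diagonal d)) =
      fun j => cb (Matrix.vecMul (xx p j) (t • Z)) (p j) := by
    funext j i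
    rw [Matrix.vecMul_diagonal, Matrix.vecMul_smul]
    refine Fin.cases ?_ (fun i => Fin.cases ?_ (fun i => ?_) i) i
    · show Matrix.vecMul (xx p j) Z 0 * t = (t • Matrix.vecMul (xx p j) Z) 0
      rw [Pi.smul_apply, smul_eq_mul, mul_comm]
    · show Matrix.vecMul (xx p j) Z 1 * t = (t • Matrix.vecMul (xx p j) Z) 1
      rw [Pi.smul_apply, smul_eq_mul, mul_comm]
    · show p j i.succ.succ * 1 = p j i.succ.succ
      rw [mul_one]
  rw [h6, h2] at h1
  unfold Phi
  rw [h1, Matrix.det_smul, Fintype.card_fin, mul_pow, ← pow_mul, pow_add]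
  ring

theorem Phi_mem {B n a : ℕ} (s : ℕ) {F : (Fin B → Fin (n + 2) → ℂ) → ℂ}
    {lam : Fin (n + 2) → ℕ} (hF : F ∈ MP B (n + 2) a) (hw : HWF B (n + 2) lam F)
    (p : Fin B → Fin (n + 2) → ℂ) : Phi s F p ∈ WW (1 + 1) (lam 0 + lam 1 + 2 * s) := by
  obtain ⟨P, hP⟩ := exists_poly s hF p
  obtain ⟨D, hD⟩ : ∃ D, D = lam 0 + lam 1 + 2 * s := ⟨_, rfl⟩
  rw [← hD]
  have key : ∀ Z : Matrix (Fin (1 + 1)) (Fin (1 + 1)) ℂ, Phi s F p Z =
      MvPolynomial.eval (fun u => Z u.1 u.2) (MvPolynomial.homogeneousComponent D P) := by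
    intro Z
    let e : ℕ → ℂ := fun d =>
      MvPolynomial.eval (fun u => Z u.1 u.2) (MvPolynomial.homogeneousComponent d P)
    let R : Polynomial ℂ := ∑ d ∈ Finset.range (P.totalDegree + 1),
      Polynomial.C (e d) * Polynomial.X ^ d
    have hR : ∀ t : ℂ, R.eval t = Phi s F p (t • Z) := by
      intro t
      have h1 : ∀ d, MvPolynomial.eval (fun u => (t • Z) u.1 u.2)
          (MvPolynomial.homogeneousComponent d P) = t ^ d * e d := fun d =>
        WW_smul (1 + 1) d (WW_of_hom (1 + 1) d _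
          (MvPolynomial.homogeneousComponent_isHomogeneous d P)) t Z
      rw [hP]
      conv_rhs => rw [← MvPolynomial.sum_homogeneousComponent P]
      rw [map_sum, Polynomial.eval_finsetSum]
      refine Finset.sum_congr rfl fun d _ => ?_
      rw [h1, Polynomial.eval_mul, Polynomial.eval_C, Polynomial.eval_pow, Polynomial.eval_X,
        mul_comm]
    have hR2 : R = Polynomial.C (Phi s F p Z) * Polynomial.X ^ D := by
      apply Polynomial.eq_of_infinite_eval_eq
      refine Set.Infinite.mono (s := {0}ᶜ) ?_ (Set.finite_singleton (0 : ℂ)).infinite_compl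
      intro t ht
      show R.eval t = _
      rw [hR, Phi_smul s hw p ht, ← hD, Polynomial.eval_mul, Polynomial.eval_C,
        Polynomial.eval_pow, Polynomial.eval_X, mul_comm]
    have h3 : R.coeff D = e D := by
      simp only [R, Polynomial.finsetSum_coeff, Polynomial.coeff_C_mul, Polynomial.coeff_X_pow]
      simp only [mul_ite, mul_one, mul_zero]
      rw [Finset.sum_ite_eq]
      by_cases h : D ∈ Finset.range (P.totalDegree + 1)
      · rw [if_pos h]
      · rw [if_neg h]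
        have h4 : P.totalDegree < D := by
          rw [Finset.mem_range] at h
          omega
        simp only [e]
        rw [MvPolynomial.homogeneousComponent_eq_zero D P h4, map_zero]
    rw [hR2, Polynomial.coeff_C_mul, Polynomial.coeff_X_pow, if_pos rfl, mul_one] at h3
    exact h3
  have h5 : Phi s F p = fun X : Matrix (Fin (1 + 1)) (Fin (1 + 1)) ℂ =>
      MvPolynomial.eval (fun u => X u.1 u.2) (MvPolynomial.homogeneousComponent D P) :=
    funext key
  rw [h5]
  exact WW_of_hom (1 + 1) D _ (MvPolynomial.homogeneousComponent_isHomogeneous D P)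

theorem g6 : G6 := by
  classical
  intro k N n N0 N1 s c a τ α q z lam hpol hsep _ hlam
  obtain ⟨C, hC0, hC⟩ := v5 τ α q z hpol hsep
  obtain ⟨D, hD⟩ : ∃ D, D = k * nn 1 * c := ⟨_, rfl⟩
  obtain ⟨M, hM⟩ : ∃ M, M = Module.finrank ℂ (WW (1 + 1) D) := ⟨_, rfl⟩
  have : Module.Finite ℂ (WW (1 + 1) D) := by
    unfold WW
    exact Module.Finite.span_of_finite ℂ (Set.finite_range _)
  let bs : Module.Basis (Fin M) ℂ (WW (1 + 1) D) :=
    (Module.finBasis ℂ (WW (1 + 1) D)).reindex (finCongr hM.symm)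
  let w : Fin M → Matrix (Fin (1 + 1)) (Fin (1 + 1)) ℂ → ℂ := fun l => (bs l : _)
  have hwW : ∀ l, w l ∈ WW (1 + 1) D := fun l => (bs l).2
  have hwli : LinearIndependent ℂ w := by
    have h1 := bs.linearIndependent
    exact h1.map' (WW (1 + 1) D).subtype (Submodule.ker_subtype _)
  obtain ⟨X, hX⟩ := exists_points w hwli
  have hYz : IsUnit (Yb z).det := isUnit_iff_ne_zero.mpr hsep.2.2.2.2
  refine ⟨M, fun l => (Yb z)⁻¹ * X l, ?_, ?_⟩
  · rw [hM, ← hD]
    exact WW_finrank (1 + 1) D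
  intro F hF hFw hF0 hsym
  obtain ⟨p1, hp1⟩ : ∃ p1, F p1 ≠ 0 := by
    by_contra hcon
    push Not at hcon
    exact hF0 (funext hcon)
  obtain ⟨p0, hp0⟩ : ∃ p0 : Fin (k * nn 1) → Fin (n + 2) → ℂ,
      xx p0 = fun j => z (finProdFinEquiv.symm j).2 := by
    refine ⟨fun j => Fin.cons (z (finProdFinEquiv.symm j).2 0)
      (Fin.cons (z (finProdFinEquiv.symm j).2 1) fun _ => 0), ?_⟩
    funext j i
    fin_cases i
    · rfl
    · rfl
  let pl : ℂ → Fin (k * nn 1) → Fin (n + 2) → ℂ := fun s j i => p0 j i + s * (p1 j i - p0 j i)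
  have hpl : ∀ j i, IsP (fun s => pl s j i) := fun j i =>
    (IsP.const _).add (IsP.id.mul (IsP.const _))
  have hxl : ∀ j i, IsP (fun s => xx (pl s) j i) := by
    intro j i
    refine Fin.cases ?_ (fun i => ?_) i
    · exact hpl j 0
    · exact hpl j 1
  have hpl0 : pl 0 = p0 := by
    funext j i
    simp [pl]
  have hpl1 : pl 1 = p1 := by
    funext j i
    simp [pl]
  -- the functionals
  let Lm : (Fin (k * nn 1) → Fin (1 + 1) → ℂ) → (Matrix (Fin (1 + 1)) (Fin (1 + 1)) ℂ → ℂ) → ℂ :=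
    fun p Φ => ∑ σ : Equiv.Perm (Fin (k * nn 1)), QQ q (fun j => p (σ j)) *
      ∑ i, α i * Φ (YY (τ i) (fun j => p (σ j)))
  let Mx : ℂ → Matrix (Fin M) (Fin M) ℂ := fun s =>
    Matrix.of (fun l k' => Lm (xx (pl s)) (fun Z => w k' (Z * ((Yb z)⁻¹ * X l))))
  have hMxP : IsP (fun s => (Mx s).det) := by
    apply IsP.det
    intro l k'
    show IsP (fun s => Lm (xx (pl s)) (fun Z => w k' (Z * ((Yb z)⁻¹ * X l))))
    apply IsP.sum
    intro σ _
    apply IsP.mul
    · unfold QQ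
      apply IsP.prod
      intro β _
      exact IsP.mp hsep.1 (fun a b => hxl _ _)
    · apply IsP.sum
      intro i _
      apply (IsP.const _).mul
      apply WW_isP (1 + 1) D (hwW k')
      intro a b
      simp only [Matrix.mul_apply (M := YY _ _)]
      apply IsP.sum
      intro e _
      apply IsP.mul
      · exact IsP.yy _ (fun a b => hxl _ _) a e
      · exact IsP.const _
  have hMx0 : (Mx 0).det ≠ 0 := by
    have h1 : Mx 0 = C • Matrix.of (fun l k' => w k' (X l)) := by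
      ext l k'
      show Lm (xx (pl 0)) (fun Z => w k' (Z * ((Yb z)⁻¹ * X l))) = C * w k' (X l)
      rw [hpl0, hp0]
      have h2 := hC (fun Z => w k' (Z * ((Yb z)⁻¹ * X l))) (by
        intro s Z
        rw [Matrix.smul_mul, ← hD]
        exact WW_smul (1 + 1) D (hwW k') s _)
      have h3 : Yb z * ((Yb z)⁻¹ * X l) = X l := by
        rw [← Matrix.mul_assoc, Matrix.mul_nonsing_inv _ hYz, Matrix.one_mul]
      rw [h3] at h2
      exact h2
    rw [h1, Matrix.det_smul]
    exact mul_ne_zero (pow_ne_zero _ hC0) hX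
  have hFP : IsP (fun s => F (pl s)) := IsP.mp hF hpl
  obtain ⟨P1, hP1'⟩ := hMxP
  obtain ⟨P2, hP2'⟩ := hFP
  have hP1 : ∀ s, (Mx s).det = P1.eval s := hP1'
  have hP2 : ∀ s, F (pl s) = P2.eval s := hP2'
  have hP10 : P1 ≠ 0 := by
    intro h
    apply hMx0
    rw [hP1 0, h, Polynomial.eval_zero]
  have hP20 : P2 ≠ 0 := by
    intro h
    apply hp1
    have := hP2 1
    rw [hpl1, h, Polynomial.eval_zero] at this
    exact this
  obtain ⟨u, hu⟩ := Polynomial.exists_eval_ne_zero_of_natDegree_lt_card (P1 * P2)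
    (mul_ne_zero hP10 hP20) (by
      rw [Cardinal.mk_complex]
      exact Cardinal.natCast_lt_aleph0.trans Cardinal.aleph0_lt_continuum)
  rw [Polynomial.eval_mul] at hu
  have hs1 : (Mx u).det ≠ 0 := by
    rw [hP1 u]
    exact left_ne_zero_of_mul hu
  have hs2 : F (pl u) ≠ 0 := by
    rw [hP2 u]
    exact right_ne_zero_of_mul hu
  by_contra hcon
  push Not at hcon
  -- the substituted function
  have hFpW : Phi s F (pl u) ∈ WW (1 + 1) D := by
    rw [hD, ← hlam]
    exact Phi_mem s hF hFw (pl u)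
  let b : Fin M → ℂ := fun l => bs.repr ⟨Phi s F (pl u), hFpW⟩ l
  have hFa : Phi s F (pl u) = ∑ l, b l • w l := by
    have h1 := bs.sum_repr ⟨Phi s F (pl u), hFpW⟩
    have h2 := congrArg (WW (1 + 1) D).subtype h1
    rw [map_sum] at h2
    exact h2.symm
  have hLF : ∀ l, Lm (xx (pl u)) (fun Z => Phi s F (pl u) (Z * ((Yb z)⁻¹ * X l))) = 0 := by
    intro l
    have h1 := hcon l (pl u)
    rw [← h1]
    apply Finset.sum_congr rfl
    intro σ _
    congr 1
    unfold TG
    apply Finset.sum_congr rfl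
    intro i _
    congr 1
    exact congrArg (fun y => (YY (τ i) (fun j => xx (pl u) (σ j)) *
      ((Yb z)⁻¹ * X l)).det ^ s * y) (hsym σ (fun j => cb (Matrix.vecMul (xx (pl u) j)
      (YY (τ i) (fun j => xx (pl u) (σ j)) * ((Yb z)⁻¹ * X l))) (pl u j))).symm
  have hLa : (Mx u).mulVec b = 0 := by
    funext l
    rw [Pi.zero_apply, ← hLF l]
    show ∑ k', Lm (xx (pl u)) (fun Z => w k' (Z * ((Yb z)⁻¹ * X l))) * b k' = _
    simp only [Lm]
    rw [hFa]
    simp only [Finset.sum_apply, Pi.smul_apply, smul_eq_mul]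
    simp only [Finset.mul_sum, Finset.sum_mul]
    rw [Finset.sum_comm]
    apply Finset.sum_congr rfl
    intro σ _
    rw [Finset.sum_comm]
    apply Finset.sum_congr rfl
    intro i _
    apply Finset.sum_congr rfl
    intro k' _
    ring
  have hb0 : b = 0 := Matrix.eq_zero_of_mulVec_eq_zero hs1 hLa
  apply hs2
  have h1 : Phi s F (pl u) 1 = F (pl u) := by
    unfold Phi
    rw [Matrix.det_one, one_pow, one_mul]
    congr 1
    funext j i
    rw [Matrix.vecMul_one]
    refine Fin.cases ?_ (fun i => Fin.cases ?_ (fun i => ?_) i) i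
    · rfl
    · rfl
    · rfl
  rw [← h1, hFa, hb0]
  simp

end Vale.Agent.P181.GK.H971
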